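import Vale.Agent.P022E.Loc.Defs
import Vale.Agent.P022D.Loc2.Obj
import Vale.Agent.P022E.G5.Two

/-!
# P022, block Loc: the blocks at two and at infinity
-/

set_option linter.all false

noncomputable section

namespace Vale.Agent.P022E.Loc

open NumberField IsLocalRing
open Vale.Agent.P022 Vale.Agent.P022D Vale.Agent.P022D.R
open Vale.Agent.P027M.S (mx)

namespace B2

variable {O F : Type} [CommRing O] [Field F]

theorem cv_one {S : Dat O F} {A : Type} [CommRing A] (X : Obj S A) (l : ℕ) (g : GQ) :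
    cv X l 1 1 g = lr X l g := by
  rw [cv, Matrix.map_one _ (map_zero _) (map_one _), one_mul, mul_one]

theorem blk_of_out [IsLocalRing O] (L : Pl O) (S : Dat O F) {G : Type} [Group G]
    [TopologicalSpace G] (j : G →* GQ) (hj : Continuous j) (l : ℕ)
    (hD : ∀ g, g ∈ L.D l ↔ ∃ x, j x = g)
    (hdet : ∀ (A : Type) [CommRing A] (X : Obj S A), Cnd L S X → ∀ g ∈ L.D l,
      (X.ρ g).det = X.ι (L.r g).det)
    (k : ℕ) (s : F → O) (hs : ∀ x, S.red (s x) = x)
    (h : letI := S.red.toAlgebra; Loc2.OutG (Loc2.lb j S.rb) s (fun x => (L.r (j x)).det) k) :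
    Blk L S l k := by
  let _ := S.red.toAlgebra
  obtain ⟨τ, ι, _, _, g, p, q, f, h1, h2, h3, h4, h5⟩ := h
  have hres : ∀ (A : Type) [CommRing A] (X : Obj S A) (x : G) (a b : Fin 2),
      X.π (Loc2.lr j X l x a b - X.ι (s (Loc2.lb j S.rb x a b))) = 0 := by
    intro A _ X x a b
    rw [map_sub, X.alg, hs, ← Loc2.lr_res j X l x, Matrix.map_apply, sub_self]
  have hlc : ∀ (A : Type) [CommRing A] (X : Obj S A), IsLocallyConstant (Loc2.lr j X l) :=
    fun A _ X => ((Loc2.lc_of_open X.ρ X.opn).comp_continuous hj).comp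
      (fun M => X.β l * M * X.α l)
  refine ⟨τ, ι, inferInstance, inferInstance, fun t => j (g t), p, q,
    fun t => s (Loc2.lb j S.rb (g t) (p t) (q t)), f, 1, 1, mul_one _, h1, fun t => ?_,
    fun i => Loc2.red_zero hs ((CA.Cpl.mem_max_iff _).1 (h2 i)), h3, ?_, ?_⟩
  · rw [Matrix.map_one _ (map_zero _) (map_one _), one_mul, mul_one]
    exact hs _
  · intro Y hY hc h0 γ hγ
    simp only [cv_one] at h0
    obtain ⟨x, rfl⟩ := (hD γ).1 hγ
    have hf : ∀ y a b, (Loc2.lr j Y l y a b).fst = Loc2.lb j S.rb y a b := fun y a b => by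
      rw [← hY.pi, ← Loc2.lr_res j Y l y, Matrix.map_apply]
    have hz : L2b.Z1 (Loc2.lb j S.rb) fun y => (Loc2.lr j Y l y).map TrivSqZeroExt.snd := by
      refine ⟨(hlc _ Y).comp fun M : L2b.M2 (DualNumber F) => M.map TrivSqZeroExt.snd,
        fun y z => ?_, fun y => ?_⟩
      · ext a b
        simp only [map_mul (Loc2.lr j Y l), Matrix.map_apply, Matrix.mul_apply, Matrix.add_apply,
          Fin.sum_univ_two, TrivSqZeroExt.snd_add, DualNumber.snd_mul, hf]
        ring
      · have h6 := congrArg TrivSqZeroExt.snd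
          ((Loc2.lr_det j Y l y).trans ((hdet _ Y hc (j y) ((hD _).2 ⟨y, rfl⟩)).trans (hY.io _)))
        simp only [Matrix.det_fin_two, TrivSqZeroExt.snd_sub, DualNumber.snd_mul, hf,
          TrivSqZeroExt.snd_inl] at h6
        simp only [L2b.pd, Matrix.map_apply]
        linear_combination h6
    have h7 := h4 _ hz (fun t => by
      have h8 := congrArg TrivSqZeroExt.snd (h0 t)
      rw [hY.io, TrivSqZeroExt.snd_inl] at h8
      exact h8) x
    refine Matrix.ext fun a b => ?_
    exact TrivSqZeroExt.ext (hf x a b) (congrFun (congrFun h7 a) b)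
  · intro A _ X hc φ hC hX
    simp only [cv_one] at hX
    let _ := X.ι.toAlgebra
    have := X.fin
    have hL : L2b.Lift (Loc2.lb j S.rb) s (fun x => (L.r (j x)).det) (Loc2.lr j X l) :=
      ⟨hlc A X, fun a ha => Loc2.nil_of_res X ((X.alg a).trans (Loc2.red_zero hs ha)),
        fun x a b => Loc2.nil_of_res X (hres A X x a b),
        fun x => (Loc2.lr_det j X l x).trans (hdet A X hc _ ((hD _).2 ⟨x, rfl⟩))⟩
    exact (h5 A (Loc2.lr j X l) hL).2 ⟨φ, hC⟩ hX

end B2

theorem b2 : B2 := by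
  intro O F _ _ _ _ _ _ _ S L hL
  let _ := S.red.toAlgebra
  have hD : L.D 2 = (W.dec (L.P 2) : Set GQ) := if_neg (by norm_num)
  refine B2.blk_of_out L S (Loc2.jj 2) (Loc2.jj_cont 2) 2 (fun g => ?_)
    (fun A _ X hX g hg => hX.d2 g (by rwa [hD] at hg)) 6 (Function.surjInv S.surj)
    (Function.surjInv_eq S.surj) ?_
  · rw [hD, hL.h2]
    exact Loc2.range_jj 2 g
  · refine G5.two3 S.rb hL.dh.opn hL.dh.spl (Loc2.lb (Loc2.jj 2) S.rb) (fun _ => rfl)
      (((Loc2.lc_of_open S.rb hL.dh.opn).comp_continuous (Loc2.jj_cont 2)).comp (Units.coeHom _))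
      (fun x => hL.det _) _ _ (Function.surjInv_eq S.surj) (fun x => ?_)
    have e := hL.det (Loc2.jj 2 x)
    rw [← hL.lift, ← RingHom.mapMatrix_apply, ← RingHom.map_det] at e
    exact e

theorem b0 : B0 := by
  intro O F _ _ _ _ S L hL
  let _ := S.red.toAlgebra
  have hc := Loc2.conj_sq hL.cj
  have hD : L.D 0 = {1, L.c} := if_pos rfl
  let H : Subgroup GQ :=
    { carrier := {1, L.c}
      one_mem' := Or.inl rfl
      mul_mem' := by
        rintro a b (rfl | rfl) (rfl | rfl)
        · exact Or.inl (mul_one _)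
        · exact Or.inr (one_mul _)
        · exact Or.inr (mul_one _)
        · exact Or.inl hc
      inv_mem' := by
        rintro a (rfl | rfl)
        · exact Or.inl inv_one
        · exact Or.inr (inv_eq_of_mul_eq_one_right hc) }
  refine B2.blk_of_out L S H.subtype continuous_subtype_val 0 (fun g => ?_)
    (fun A _ X hX g hg => ?_) 2 (Function.surjInv S.surj) (Function.surjInv_eq S.surj) ?_
  · rw [hD]
    exact ⟨fun hg => ⟨⟨g, hg⟩, rfl⟩, fun ⟨x, hx⟩ => hx ▸ x.2⟩
  · rw [hD] at hg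
    rcases hg with rfl | rfl
    · rw [map_one, map_one, Matrix.det_one, Matrix.det_one, map_one]
    · rw [hX.dc, hL.odd, map_neg, map_one]
  · refine Loc2.inf2 H F O (Loc2.lb H.subtype S.rb) _ _ ⟨L.c, Or.inr rfl⟩ ?_ (Subtype.ext hc)
      (hL.det _) hL.odd (Function.surjInv_eq S.surj)
    rintro ⟨x, rfl | rfl⟩
    · exact Or.inl rfl
    · exact Or.inr rfl

end Vale.Agent.P022E.Loc
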