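import Vale.Agent.P022E.Loc.Defs
import Vale.Agent.P022D.W.Pair

/-!
# P022, non solvable case, block Loc: the block at a regular prime
-/

set_option linter.all false

noncomputable section

namespace Vale.Agent.P022E.Loc

open NumberField IsLocalRing
open Vale.Agent.P022 Vale.Agent.P022.H443 Vale.Agent.P022D Vale.Agent.P022D.R Vale.Agent.P022D.W
open Vale.Agent.P027M.S (mx)
open Vale.Agent.P022D.Sel (M2 IsDec)
open Vale.Agent.P022E.Sel (Dh)

/-- restriction of the tame structure to the decomposition group -/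
theorem tame_res {G Γ : Type*} [Group G] [Monoid Γ] {ℓ : ℕ} {D I N : Subgroup G} {τ φ : G}
    {f : G →* Γ} (h : TameAt ℓ D I N τ φ f) :
    TameAt ℓ ⊤ (I.subgroupOf D) (N.subgroupOf D) ⟨τ, h.ID h.tau⟩ ⟨φ, h.phi⟩ (f.comp D.subtype) := by
  refine ⟨le_top, fun x hx => h.NI hx, h.tau, trivial, fun g _ s hs => h.cjI g g.2 s hs,
    fun g _ s hs => h.cjN g g.2 s hs, fun p hp => h.odd p hp, fun s hs => ?_, fun s hs => ?_,
    fun g _ => ?_⟩
  · obtain ⟨k, p, hp, e⟩ := h.cyc s hs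
    exact ⟨k, ⟨p, h.ID (h.NI hp)⟩, hp, Subtype.ext e⟩
  · obtain ⟨p, hp, e⟩ := h.rel s hs
    exact ⟨⟨p, h.ID (h.NI hp)⟩, hp, Subtype.ext e⟩
  · obtain ⟨k, s, hs, e⟩ := h.gen g g.2
    exact ⟨k, ⟨s, h.ID hs⟩, hs, e⟩

variable {O F : Type} [CommRing O] [Field F]

/-- the residual representation with values in matrices -/
def rbm (S : Dat O F) : GQ →* Mt F := (Units.coeHom _).comp S.rb

/-- the residual representation on the decomposition group, in the local basis -/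
def Pl.rr (L : Pl O) (S : Dat O F) (l : ℕ) : dec (L.P l) →* Mt F :=
  (L.rb S l).comp (dec (L.P l)).subtype

/-- the local subgroup inside the decomposition group -/
def Pl.Hd (L : Pl O) (l : ℕ) : Subgroup (dec (L.P l)) := (L.Hl l).subgroupOf (dec (L.P l))

theorem Pl.Ok.wd' [IsLocalRing O] [CharP F 2] {L : Pl O} {S : Dat O F} (h : L.Ok S) {l : ℕ}
    (hl : l ∈ L.W) {g : GQ} (h1 : g ∈ dec (L.P l)) (h2 : g ∈ L.Hl l)
    (h3 : L.rb S l g 0 0 ≠ L.rb S l g 1 1) : WD l ⊤ (L.Hd l) ⟨g, h1⟩ (L.rr S l) :=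
  have hp := h.pr l (Finset.mem_union_left _ hl)
  ⟨hp.1.odd_of_ne_two hp.2, CharTwo.two_eq_zero, fun x hx => h.dg l hl x hx,
    fun x hx => h.ad l hl x x.2 hx, trivial, h2, h3⟩

theorem Pl.Ok.wd [IsLocalRing O] [CharP F 2] {L : Pl O} {S : Dat O F} (h : L.Ok S) {l : ℕ}
    (hl : l ∈ L.W) : WD l ⊤ (L.Hd l) ⟨L.g0 l, (h.reg l hl).1⟩ (L.rr S l) :=
  h.wd' hl _ (h.reg l hl).2.1 (h.reg l hl).2.2

variable {S : Dat O F} {A : Type} [CommRing A]

theorem Pl.cu_mul (L : Pl O) (l : ℕ) (ι : O →+* A) :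
    (L.cu l : M2 O).map ι * (((L.cu l)⁻¹ : GL (Fin 2) O) : M2 O).map ι = 1 := by
  rw [← Matrix.map_mul, Units.mul_inv, Matrix.map_one _ (map_zero _) (map_one _)]

theorem Pl.cu_mul' (L : Pl O) (l : ℕ) (ι : O →+* A) :
    (((L.cu l)⁻¹ : GL (Fin 2) O) : M2 O).map ι * (L.cu l : M2 O).map ι = 1 :=
  mul_eq_one_comm.1 (L.cu_mul l ι)

/-- the change of basis at `l` -/
def Pl.ch (L : Pl O) (l : ℕ) (ι : O →+* A) : M2 A →* M2 A :=
  cjH _ _ (L.cu_mul' l ι) (L.cu_mul l ι)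

/-- a lift on the decomposition group, in the local basis -/
def Pl.rs (L : Pl O) (l : ℕ) (ι : O →+* A) (ρ : GQ →* M2 A) : dec (L.P l) →* Mt A :=
  ((L.ch l ι).comp ρ).comp (dec (L.P l)).subtype

theorem Pl.rs_tr (L : Pl O) (l : ℕ) (ι : O →+* A) (ρ : GQ →* M2 A) (g : dec (L.P l)) :
    trc (L.rs l ι ρ) g = (ρ g).trace :=
  congrFun (trc_cj ρ _ _ (L.cu_mul' l ι) (L.cu_mul l ι)) (g : GQ)

theorem Pl.rs_dt (L : Pl O) (l : ℕ) (ι : O →+* A) (ρ : GQ →* M2 A) (g : dec (L.P l)) :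
    dtm (L.rs l ι ρ) g = (ρ g).det :=
  congrFun (dtm_cj ρ _ _ (L.cu_mul' l ι) (L.cu_mul l ι)) (g : GQ)

theorem Pl.ch_res (L : Pl O) (l : ℕ) {ι : O →+* A} {π : A →+* F} (alg : ∀ c, π (ι c) = S.red c)
    {M : M2 A} {g : GQ} (h : M.map π = mx S.rb g) : (L.ch l ι M).map π = L.rb S l g := by
  have e : ∀ u : M2 O, (u.map ι).map π = u.map S.red := fun u => by ext a b; exact alg _
  show ((L.cu l : M2 O).map ι * M * (((L.cu l)⁻¹ : GL (Fin 2) O) : M2 O).map ι).map π = _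
  rw [Matrix.map_mul, Matrix.map_mul, e, e, h, Pl.rb_apply]

theorem Pl.rs_lift (L : Pl O) (l : ℕ) {ι : O →+* A} {π : A →+* F} (alg : ∀ c, π (ι c) = S.red c)
    {ρ : GQ →* M2 A} (h : ∀ g, (ρ g).map π = mx S.rb g) : Lift π (L.rr S l) (L.rs l ι ρ) :=
  fun g => L.ch_res l alg (h g)

theorem Pl.rb_tr (L : Pl O) (l : ℕ) (g : GQ) : (L.rb S l g).trace = (mx S.rb g).trace := by
  rw [Pl.rb_apply, Matrix.trace_mul_cycle, L.cu_mul', one_mul]

theorem Pl.rb_det (L : Pl O) (l : ℕ) (g : GQ) : (L.rb S l g).det = (mx S.rb g).det := by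
  rw [Pl.rb_apply, Matrix.det_mul, Matrix.det_mul, mul_right_comm, ← Matrix.det_mul, L.cu_mul,
    Matrix.det_one, one_mul]

theorem tame_rs {L : Pl O} {l : ℕ} {N : Subgroup GQ} (ι : O →+* A) {ρ ρ' : GQ →* M2 A}
    (h : TameAt l (dec (L.P l)) (inP (L.P l)) N (L.τ l) (L.φ l) (ρ.prod ρ')) :
    TameAt l ⊤ ((inP (L.P l)).subgroupOf (dec (L.P l))) (N.subgroupOf (dec (L.P l)))
      ⟨L.τ l, h.ID h.tau⟩ ⟨L.φ l, h.phi⟩ ((L.rs l ι ρ).prod (L.rs l ι ρ')) :=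
  tame_res (h.comp ((L.ch l ι).prodMap (L.ch l ι)))

theorem lr_eq (X : Obj S A) (l : ℕ) :
    lr X l = (cjH (X.α l) (X.β l) (X.inv l) (mul_eq_one_comm.1 (X.inv l))).comp X.ρ := rfl

theorem lr_lift (X : Obj S A) (l : ℕ) : Lift X.π (rbm S) (lr X l) :=
  Lift.cj (ρ := X.ρ) (rb := rbm S) X.res (X.inv l) (mul_eq_one_comm.1 (X.inv l)) (X.one l)

theorem lr_tr (X : Obj S A) (l : ℕ) (g : GQ) : (lr X l g).trace = (X.ρ g).trace :=
  congrFun (trc_cj X.ρ _ _ (X.inv l) (mul_eq_one_comm.1 (X.inv l))) g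

theorem lr_dt (X : Obj S A) (l : ℕ) (g : GQ) : (lr X l g).det = (X.ρ g).det :=
  congrFun (dtm_cj X.ρ _ _ (X.inv l) (mul_eq_one_comm.1 (X.inv l))) g

theorem Obj.lrr (X : Obj S A) : LR X.π := by
  have := X.fin
  exact LR.of_finite X.π X.loc

/-- if `σ g0` is diagonal the equation `En` names the first entry of `σ s` -/
theorem en_diag {π : A →+* F} (loc : ∀ a, π a ≠ 0 → IsUnit a) {σ : GQ →* M2 A} {g0 s : GQ}
    (h01 : σ g0 0 1 = 0) (h10 : σ g0 1 0 = 0) (hne : π (σ g0 0 0) ≠ π (σ g0 1 1)) {y a : A}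
    (hr : Rt σ g0 y) (hy : π y = π (σ g0 1 1)) (he : En σ g0 s y a) :
    y = σ g0 1 1 ∧ σ s 0 0 = a := by
  simp only [Rt, En, map_mul, Matrix.trace_fin_two, Matrix.det_fin_two, Matrix.mul_apply,
    Fin.sum_univ_two, h01, h10] at hr he
  have u1 : IsUnit (y - σ g0 0 0) := loc _ (by rw [map_sub, hy, sub_ne_zero]; exact hne.symm)
  have e : y = σ g0 1 1 := u1.mul_left_cancel (by linear_combination hr)
  have u2 : IsUnit (σ g0 0 0 - σ g0 1 1) := loc _ (by rw [map_sub, sub_ne_zero]; exact hne)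
  rw [e] at he
  exact ⟨e, u2.mul_left_cancel (by linear_combination he)⟩

theorem bw : BW := by
  intro O F _ _ _ _ S L h l hl
  have hW := h.wd hl
  have hl' : l ∈ L.W ∪ L.C := Finset.mem_union_left _ hl
  have hτD : L.τ l ∈ dec (L.P l) := inP_le_dec (h.tm l hl').tau
  have hφD : L.φ l ∈ dec (L.P l) := phi_mem (h.pr l hl').1 (h.hP l hl').1 (h.tm l hl').frob
  set g0 : dec (L.P l) := ⟨L.g0 l, (h.reg l hl).1⟩ with hg0
  set τ : dec (L.P l) := ⟨L.τ l, hτD⟩ with hτ0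
  set φ : dec (L.P l) := ⟨L.φ l, hφD⟩ with hφ0
  choose s hs using S.surj
  refine ⟨Fin 4, Empty, inferInstance, inferInstance, fun t => (cg (L.Hd l) g0 τ φ t).1,
    cp (L.Hd l) τ, cq (L.Hd l) τ φ, fun t => s (L.rb S l _ _ _), fun i => i.elim,
    (L.cu l : M2 O), (((L.cu l)⁻¹ : GL (Fin 2) O) : M2 O), Units.mul_inv _, by simp,
    fun t => hs _, fun i => i.elim, fun _ _ _ _ _ _ _ _ _ _ _ _ _ _ _ =>
      Or.inl fun _ _ i => i.elim, ?_, fun _ _ _ _ _ _ _ i => i.elim⟩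
  intro Y hY hC hc x hx
  rw [Pl.D, if_neg (h.pr l hl').1.ne_zero] at hx
  let j : F →+* DualNumber F := (TrivSqZeroExt.inlHom F F)
  let r : GQ →* Mt (DualNumber F) := j.mapMatrix.toMonoidHom.comp (rbm S)
  have hr : ∀ g a b, r g a b = TrivSqZeroExt.inl (rbm S g a b) := fun _ _ _ => rfl
  have l0 := lr_lift Y l
  have l0' : Lift Y.π (rbm S) r := fun g => by
    ext a b; rw [Matrix.map_apply, hY.pi, hr]; rfl
  have l1 := L.rs_lift l Y.alg l0
  have l2 := L.rs_lift l Y.alg l0'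
  have cst : ∀ c, Y.ι c = TrivSqZeroExt.inl (Y.π (Y.ι c)) := fun c => by rw [Y.alg, hY.io]
  have hr' : ∀ g a b, L.rs l Y.ι r g a b = TrivSqZeroExt.inl (L.rr S l g a b) := by
    intro g a b
    have e : ∀ u : M2 O, u.map Y.ι = (u.map S.red).map j := fun u =>
      Matrix.ext fun a b => hY.io _
    show ((L.cu l : M2 O).map Y.ι * (mx S.rb g).map j *
      (((L.cu l)⁻¹ : GL (Fin 2) O) : M2 O).map Y.ι) a b = _
    rw [e, e, ← Matrix.map_mul, ← Matrix.map_mul]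
    rfl
  have hc' : ∀ t, L.rs l Y.ι (lr Y l) (cg (L.Hd l) g0 τ φ t) (cp (L.Hd l) τ t) (cq (L.Hd l) τ φ t)
      = L.rs l Y.ι r (cg (L.Hd l) g0 τ φ t) (cp (L.Hd l) τ t) (cq (L.Hd l) τ φ t) := fun t => by
    rw [hr']
    exact (hc t).trans (by rw [hY.io, hs]; rfl)
  have r01 : L.rs l Y.ι r g0 0 1 = 0 := by rw [hr', (hW.dg _ hW.g0H).1]; rfl
  have r10 : L.rs l Y.ι r g0 1 0 = 0 := by rw [hr', (hW.dg _ hW.g0H).2]; rfl
  have c0 : L.rs l Y.ι (lr Y l) g0 0 1 = 0 := (hc' 0).trans r01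
  have c1 : L.rs l Y.ι (lr Y l) g0 1 0 = 0 := (hc' 1).trans r10
  have := galQb
  obtain ⟨N, hT0⟩ := (h.tm l hl').tame _ ((lr Y l).prod r) (by
    have e : {g : GQ | ((lr Y l).prod r) g = 1} ⊇ {g | Y.ρ g = 1} := by
      intro g hg
      have e1 : lr Y l g = 1 := by
        rw [lr_apply, hg, mul_one]; exact mul_eq_one_comm.1 (Y.inv l)
      have e2 : rbm S g = 1 := by
        rw [← l0 g, e1]; exact Matrix.map_one _ (map_zero _) (map_one _)
      exact Prod.ext e1 (show j.mapMatrix (rbm S g) = 1 by rw [e2, map_one])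
    have := Subgroup.isOpen_mono (H₁ := Y.ρ.toHomUnits.ker) (H₂ := ((lr Y l).prod r).toHomUnits.ker)
      (fun g hg => Units.ext (e (congrArg Units.val hg))) (by
        have e2 : ((Y.ρ.toHomUnits.ker : Subgroup GQ) : Set GQ) = {g | Y.ρ g = 1} :=
          Set.ext fun g => Units.ext_iff
        rw [e2]; exact Y.opn)
    have e3 : ((((lr Y l).prod r).toHomUnits.ker : Subgroup GQ) : Set GQ) =
        {g | ((lr Y l).prod r) g = 1} :=
      Set.ext fun g => ⟨fun e => congrArg Units.val e, fun e => Units.ext e⟩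
    rwa [e3] at this)
  have hT := tame_rs Y.ι hT0
  have h2 : Two Y.π l _ _ _ (L.Hd l) τ φ g0 (L.rr S l) (L.rs l Y.ι (lr Y l)) (L.rs l Y.ι r) :=
    ⟨hW, Obj.lrr Y, l1, l2, mon hW (Obj.lrr Y) l1 (hT.comp (MonoidHom.fst _ _)) c0 c1,
      mon hW (Obj.lrr Y) l2 (hT.comp (MonoidHom.snd _ _)) r01 r10, hT⟩
  have hd : (L.rs l Y.ι (lr Y l) τ).det = (L.rs l Y.ι r τ).det := by
    have e := hC.dl l hl'
    rw [← lr_dt Y l] at e
    refine (L.rs_dt l Y.ι _ τ).trans (Eq.trans ?_ (L.rs_dt l Y.ι _ τ).symm)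
    show (lr Y l (L.τ l)).det = (r (L.τ l)).det
    rw [e, cst, ← e, RingHom.map_det, RingHom.mapMatrix_apply, l0]
    exact j.map_det _
  have fin : L.rs l Y.ι (lr Y l) ⟨x, hx⟩ = L.rs l Y.ι r ⟨x, hx⟩ := by
    refine h2.rigid (fun t ht htH i => ?_) hc' trivial
    by_cases hτ : τ ∈ L.Hd l
    · obtain ⟨y, y1, y2, y3⟩ := hC.ty l hl
      have t1 : ∀ g, (Y.ρ g).trace = (((L.ch l Y.ι).comp (lr Y l)) g).trace := fun g =>
        (lr_tr Y l g).symm.trans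
          (congrFun (trc_cj (lr Y l) _ _ (L.cu_mul' l Y.ι) (L.cu_mul l Y.ι)) g).symm
      have t2 : ∀ g, (Y.ρ g).det = (((L.ch l Y.ι).comp (lr Y l)) g).det := fun g =>
        (lr_dt Y l g).symm.trans
          (congrFun (dtm_cj (lr Y l) _ _ (L.cu_mul' l Y.ι) (L.cu_mul l Y.ι)) g).symm
      simp only [Rt, En, t1, t2] at y1 y3
      have e := (en_diag (σ := (L.ch l Y.ι).comp (lr Y l)) (g0 := L.g0 l) (s := L.τ l) Y.loc c0 c1
        ((l1.ent g0 0 0).trans_ne (hW.ne.trans_eq (l1.ent g0 1 1).symm)) y1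
        (y2.trans (l1.ent g0 1 1).symm) y3).2
      have e' : L.rs l Y.ι (lr Y l) τ 0 0 = Y.ι (L.a l) := e
      have e0 : L.rs l Y.ι (lr Y l) τ 0 0 = L.rs l Y.ι r τ 0 0 := by
        rw [e', cst, ← e', l1.ent, hr']
      have hD := hT.ID hT.tau
      have e1 : L.rs l Y.ι (lr Y l) τ 1 1 = L.rs l Y.ι r τ 1 1 := by
        rw [Matrix.det_fin_two, Matrix.det_fin_two, h2.m1.off _ hD hτ 0 1 (by decide),
          h2.m2.off _ hD hτ 0 1 (by decide), e0] at hd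
        exact (h2.unit hτ 0).mul_left_cancel (by linear_combination hd)
      refine h2.gen_in hτ i ?_ ht
      fin_cases i
      · exact e0
      · exact e1
    · exact h2.gen_out hτ hd ht htH i
  have f1 : (L.cu l : M2 O).map Y.ι * lr Y l x * (((L.cu l)⁻¹ : GL (Fin 2) O) : M2 O).map Y.ι =
      (L.cu l : M2 O).map Y.ι * r x * (((L.cu l)⁻¹ : GL (Fin 2) O) : M2 O).map Y.ι := fin
  have f2 := congrArg (fun M => (((L.cu l)⁻¹ : GL (Fin 2) O) : M2 O).map Y.ι * M *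
    (L.cu l : M2 O).map Y.ι) f1
  simp only [mul_assoc, L.cu_mul' l Y.ι, mul_one] at f2
  simp only [← mul_assoc, L.cu_mul' l Y.ι, one_mul] at f2
  exact f2

end Vale.Agent.P022E.Loc
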