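import Vale.Agent.P022E.Loc.Defs
import Vale.Agent.P022E.Loc.G4b

/-!
# P022, non solvable case, block Loc: existence of the local data
-/

set_option linter.all false

noncomputable section

namespace Vale.Agent.P022E.Loc

open NumberField IsLocalRing
open Vale.Agent.P022 Vale.Agent.P022.H443 Vale.Agent.P022D Vale.Agent.P022D.R
open Vale.Agent.P027M.S (mx)
open Vale.Agent.P022D.Sel (M2 IsDec)
open Vale.Agent.P022E.Sel (Dh)

namespace Expl

theorem ex_prime {l : ℕ} (hl : l.Prime) : ∃ P : Ideal (𝓞 Qb), P.IsPrime ∧ (l : 𝓞 Qb) ∈ P := by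
  have hp : (Ideal.span {(l : ℤ)}).IsPrime :=
    (Ideal.span_singleton_prime (by exact_mod_cast hl.ne_zero)).2 (Nat.prime_iff_prime_int.1 hl)
  obtain ⟨P, h1, h2⟩ := Ideal.exists_ideal_over_prime_of_isIntegral_of_isDomain (S := 𝓞 Qb)
    (Ideal.span {(l : ℤ)}) (by
      rw [(RingHom.injective_iff_ker_eq_bot _).1 (algebraMap ℤ (𝓞 Qb)).injective_int]
      exact bot_le)
  refine ⟨P, h1, ?_⟩
  have : (l : ℤ) ∈ P.comap (algebraMap ℤ (𝓞 Qb)) := h2 ▸ Ideal.mem_span_singleton_self _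
  rwa [Ideal.mem_comap, map_natCast] at this

theorem mem_dec {l : ℕ} {P : Ideal (𝓞 Qb)} (hl : l.Prime) (hP : P.IsPrime) (hPl : (l : 𝓞 Qb) ∈ P)
    {g : GQ} (hg : ∀ x ∈ P, g • x ∈ P) : g ∈ W.dec P := by
  have hm : P.IsMaximal := by
    have hne : P.comap (algebraMap ℤ (𝓞 Qb)) ≠ ⊥ := by
      intro h
      have h1 : (l : ℤ) ∈ P.comap (algebraMap ℤ (𝓞 Qb)) := by
        rw [Ideal.mem_comap, map_natCast]; exact hPl
      rw [h, Ideal.mem_bot] at h1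
      exact hl.ne_zero (by exact_mod_cast h1)
    exact Ideal.isMaximal_of_isIntegral_of_isMaximal_comap P
      ((Ideal.comap_isPrime _ P).isMaximal hne)
  have e : P = P.comap (MulSemiringAction.toRingHom GQ (𝓞 Qb) g) :=
    hm.eq_of_le (Ideal.comap_ne_top _ hP.ne_top) fun x hx => hg x hx
  intro x
  refine ⟨fun h => ?_, hg x⟩
  rw [e]
  exact h

theorem tm {l : ℕ} {P : Ideal (𝓞 Qb)} (hl : l.Prime) (h2 : l ≠ 2) (hP : P.IsPrime)
    (hPl : (l : 𝓞 Qb) ∈ P) : ∃ τ φ, Tm l P τ φ := by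
  obtain ⟨τ, h1, h3⟩ := W.tame hl h2 hP hPl
  obtain ⟨φ, h4⟩ := W.exists_phi hl hP hPl
  exact ⟨τ, φ, h1, h4, h3 φ h4⟩

end Expl

open Expl in
theorem expl : EXPL := by
  intro O F _ _ _ _ _ _ S H r c Sf hk hD h10 hdet hT hS hc hr hcont hodd
  classical
  have loc : ∀ x : O, S.red x ≠ 0 → IsUnit x := fun x hx =>
    (notMem_maximalIdeal (R := O)).1 fun h => hx ((hk x).2 h)
  let f : GQ →* M2 F := (Units.coeHom _).comp S.rb
  have ho : IsOpen {g : GQ | f g = 1} := by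
    convert hD.opn using 2
    exact funext fun g => propext ⟨fun e => Units.ext e, fun e => congrArg Units.val e⟩
  have key : ∀ l ∈ Sf, ∃ (P : Ideal (𝓞 Qb)) (τ φ g0 : GQ) (a : O) (K : Subgroup GQ)
      (U : GL (Fin 2) O), (P.IsPrime ∧ (l : 𝓞 Qb) ∈ P) ∧ Tm l P τ φ ∧ (¬ UniF S.rb l →
        ∀ σ : GQ → M2 F, (σ = fun g => (U : M2 O).map S.red * mx S.rb g *
          ((U⁻¹ : GL (Fin 2) O) : M2 O).map S.red) →
        (∀ g ∈ K, σ g 0 1 = 0 ∧ σ g 1 0 = 0) ∧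
        (∀ g ∈ W.dec P, g ∉ K → σ g 0 0 = 0 ∧ σ g 1 1 = 0) ∧
        (g0 ∈ W.dec P ∧ g0 ∈ K ∧ σ g0 0 0 ≠ σ g0 1 1) ∧
        ∃ y : O, Rt r g0 y ∧ S.red y = σ g0 1 1 ∧ En r g0 τ y a) := fun l hl => by
    obtain ⟨l1, l2⟩ := hS l hl
    by_cases hU : UniF S.rb l
    · obtain ⟨P, p1, p2⟩ := ex_prime l1
      obtain ⟨τ, φ, t⟩ := tm l1 l2 p1 p2
      exact ⟨P, τ, φ, 1, 0, ⊥, 1, ⟨p1, p2⟩, t, fun h => absurd hU h⟩
    · simp only [UniF, not_forall] at hU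
      obtain ⟨P, p1, p2, g, hg, ht⟩ := hU
      obtain ⟨τ, φ, t⟩ := tm l1 l2 p1 p2
      obtain ⟨N, hN⟩ := t.tame _ f ho
      obtain ⟨u, v, K, g0, huv, b1, b2, b3, b4, b5⟩ := G4.g4 CharTwo.two_eq_zero hN
        (Set.toFinite _) (fun g _ => hdet g) (fun g _ => hD.eig g) (mem_dec l1 p1 p2 hg) ht
      obtain ⟨U, rfl, rfl⟩ := G4.lift_uv S.red S.surj loc huv
      obtain ⟨c1, c2⟩ := G4.tr_det huv (b3 g0 b2).1
      obtain ⟨a, y, k⟩ := G4.root S.red S.surj hk (r g0).trace (r g0).det (r (τ * g0)).trace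
        (r τ).trace (Eq.trans (by
          show _ = (mx S.rb g0).trace
          rw [← hr g0, Matrix.trace_fin_two, Matrix.trace_fin_two, map_add]; rfl) c1)
        (Eq.trans (by
          show _ = (mx S.rb g0).det
          rw [← hr g0, RingHom.map_det]; rfl) c2) b5
      refine ⟨P, τ, φ, g0, a, K, U, ⟨p1, p2⟩, t, ?_⟩
      rintro - _ rfl
      exact ⟨b3, b4, ⟨b1, b2, b5⟩, y, k⟩
  choose! P τ φ g0 a K U h1 h2 h3 using key
  have un : Sf.filter (fun l => ¬ UniF S.rb l) ∪ Sf.filter (fun l => UniF S.rb l) = Sf := by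
    rw [Finset.union_comm, Finset.filter_union_filter_not_eq]
  have e : ∀ l ∈ Sf, (if l = 2 then Loc2.PP 2 else P l) = P l := fun l hl => if_neg (hS l hl).2
  refine ⟨⟨H, K, U, Sf.filter fun l => ¬ UniF S.rb l, Sf.filter fun l => UniF S.rb l,
    fun l => if l = 2 then Loc2.PP 2 else P l, c, τ, φ, g0, r, a⟩,
    ⟨hk, hD, h10, hdet, by rw [hT, un], (Finset.disjoint_filter_filter_not Sf Sf _).symm, ?_, ?_,
      (if_pos rfl : (if 2 = 2 then Loc2.PP 2 else P 2) = _), hc, ?_, ?_, ?_, ?_, ?_, hr, hcont, hodd, ?_⟩, rfl, rfl, rfl, un, fun l hl => ?_⟩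
  · intro l hl
    rw [un] at hl
    exact hS l hl
  · intro l hl
    rw [un] at hl
    show (if l = 2 then Loc2.PP 2 else P l).IsPrime ∧ _ ∈ (if l = 2 then Loc2.PP 2 else P l)
    rw [e l hl]
    exact h1 l hl
  · intro l hl
    rw [un] at hl
    show Tm l (if l = 2 then Loc2.PP 2 else P l) _ _
    rw [e l hl]
    exact h2 l hl
  · intro l hl
    obtain ⟨k1, k2⟩ := Finset.mem_filter.1 hl
    exact (h3 l k1 k2 _ rfl).1
  · intro l hl g
    obtain ⟨k1, k2⟩ := Finset.mem_filter.1 hl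
    show _ ∈ W.dec (if l = 2 then Loc2.PP 2 else P l) → _
    rw [e l k1]
    exact (h3 l k1 k2 _ rfl).2.1 g
  · intro l hl
    obtain ⟨k1, k2⟩ := Finset.mem_filter.1 hl
    show _ ∈ W.dec (if l = 2 then Loc2.PP 2 else P l) ∧ _
    rw [e l k1]
    exact (h3 l k1 k2 _ rfl).2.2.1
  · intro l hl g
    obtain ⟨k1, k2⟩ := Finset.mem_filter.1 hl
    show _ ∈ W.dec (if l = 2 then Loc2.PP 2 else P l) → _
    rw [e l k1]
    exact fun hg => k2 _ (h1 l k1).1 (h1 l k1).2 g fun x hx => (hg x).2 hx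
  · intro l hl
    obtain ⟨k1, k2⟩ := Finset.mem_filter.1 hl
    exact (h3 l k1 k2 _ rfl).2.2.2
  · exact ⟨fun h => (Finset.mem_filter.1 h).2, fun h => Finset.mem_filter.2 ⟨hl, h⟩⟩

end Vale.Agent.P022E.Loc
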