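import Vale.Agent.P022E.Loc.Glue2
import Vale.Agent.P022E.Loc.B2
import Vale.Agent.P022E.Loc.BC
import Vale.Agent.P022E.Loc.BW
import Vale.Agent.P022E.Loc.Expl

/-!
# P022, non solvable case, block Loc: the outputs
-/

namespace Vale.Agent.P022E.Loc

theorem locrC : LOCR := locr clo b2 b0 bw bc

theorem locr2C : LOCR2 := locr2 clo b2 b0 bw bc

end Vale.Agent.P022E.Loc
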