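import Vale.Agent.P022E.Loc.Defs
import Vale.Agent.P022D.W.Core
import Vale.Agent.P022D.Gma.Rep

/-!
# P022, block Loc: the class is closed
-/

set_option linter.all false

noncomputable section

namespace Vale.Agent.P022E.Loc

open NumberField IsLocalRing
open Vale.Agent.P022 Vale.Agent.P022.H443 Vale.Agent.P022D Vale.Agent.P022D.R
open Vale.Agent.P027M.S (mx)
open Vale.Agent.P022D.Sel (M2 IsDec)
open Vale.Agent.P022E.Sel (Dh)

variable {O F : Type} [CommRing O] [Field F] {S : Dat O F}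

theorem obj_lr {A : Type} [CommRing A] (X : Obj S A) : W.LR X.π :=
  haveI := X.fin
  W.LR.of_finite X.π X.loc

theorem hom_pi {A B : Type} [CommRing A] [CommRing B] {X : Obj S A} {Y : Obj S B} {u : A →+* B}
    (h : Hom X Y u) (a : A) : Y.π (u a) = X.π a := by
  obtain ⟨c, hc⟩ := S.surj (X.π a)
  have h1 : IsNilpotent (a - X.ι c) := (obj_lr X).isNilpotent (by rw [map_sub, X.alg, hc, sub_self])
  have h2 := ((h1.map u).map Y.π).eq_zero
  rw [map_sub, map_sub, h.ι, Y.alg, hc] at h2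
  exact sub_eq_zero.1 h2

theorem hom_tr {A B : Type} [CommRing A] [CommRing B] {X : Obj S A} {Y : Obj S B} {u : A →+* B}
    (h : Hom X Y u) (g : GQ) : u (X.ρ g).trace = (Y.ρ g).trace := by
  rw [← h.ρ g, Matrix.trace_fin_two, Matrix.trace_fin_two, map_add]; rfl

theorem hom_det {A B : Type} [CommRing A] [CommRing B] {X : Obj S A} {Y : Obj S B} {u : A →+* B}
    (h : Hom X Y u) (g : GQ) : u (X.ρ g).det = (Y.ρ g).det := by
  rw [← h.ρ g, RingHom.map_det]; rfl

theorem obj_tr {A : Type} [CommRing A] (X : Obj S A) (g : GQ) :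
    X.π (X.ρ g).trace = (mx S.rb g).trace := by
  rw [← X.res g, Matrix.trace_fin_two, Matrix.trace_fin_two, map_add]; rfl

theorem obj_det {A : Type} [CommRing A] (X : Obj S A) (g : GQ) :
    X.π (X.ρ g).det = (mx S.rb g).det := by
  rw [← X.res g, RingHom.map_det]; rfl

/-- the root with a given residue is unique -/
theorem rt_uniq {A : Type} [CommRing A] {π : A →+* F} (loc : ∀ a, π a ≠ 0 → IsUnit a)
    {σ : GQ →* M2 A} {g0 : GQ} {y y' : A} {a b : F} (hab : a ≠ b)
    (ht : π (σ g0).trace = a + b) (h : Rt σ g0 y) (h' : Rt σ g0 y') (e : π y = b) (e' : π y' = b) :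
    y = y' := by
  have hu : IsUnit (y + y' - (σ g0).trace) := loc _ (by
    rw [map_sub, map_add, e, e', ht]
    intro h0
    exact hab (by linear_combination -h0))
  unfold Rt at h h'
  have : (y + y' - (σ g0).trace) * (y - y') = 0 := by linear_combination h - h'
  exact sub_eq_zero.1 (hu.mul_right_eq_zero.1 this)

/-- the root exists -/
theorem rt_ex {A : Type} [CommRing A] {π : A →+* F} [HenselianRing A (RingHom.ker π)]
    (loc : ∀ a, π a ≠ 0 → IsUnit a) {σ : GQ →* M2 A} {g0 : GQ} {a b : F} (hab : a ≠ b)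
    (ht : π (σ g0).trace = a + b) (hd : π (σ g0).det = a * b) {c : A} (hc : π c = b) :
    ∃ y, Rt σ g0 y ∧ π y = b := by
  obtain ⟨y, y', h1, h2, h3⟩ := Gma.hensel (RingHom.ker π) (σ g0).trace (σ g0).det c
    (by rw [RingHom.mem_ker, map_add, map_sub, map_mul, map_pow, hc, ht, hd]; ring)
    ((loc _ (by
      rw [map_sub, map_mul, map_ofNat, hc, ht]
      intro h0
      exact hab (by linear_combination -h0))).map _)
  refine ⟨y, ?_, ?_⟩
  · unfold Rt
    rw [← h1, ← h2]; ring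
  · rw [RingHom.mem_ker, map_sub, hc] at h3
    exact sub_eq_zero.1 h3

theorem rt_map {A B : Type} [CommRing A] [CommRing B] {X : Obj S A} {Y : Obj S B} {u : A →+* B}
    (h : Hom X Y u) {g0 : GQ} {y : A} (hy : Rt X.ρ g0 y) : Rt Y.ρ g0 (u y) := by
  unfold Rt at hy ⊢
  have := congrArg u hy
  rwa [map_add, map_sub, map_mul, map_pow, hom_tr h, hom_det h, map_zero] at this

theorem rb_tr (L : Pl O) (S : Dat O F) (l : ℕ) (g : GQ) :
    (L.rb S l g).trace = (mx S.rb g).trace := by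
  rw [Pl.rb_apply, Matrix.trace_mul_cycle, ← Matrix.map_mul, Units.inv_mul,
    Matrix.map_one _ (map_zero _) (map_one _), one_mul]

theorem rb_det (L : Pl O) (S : Dat O F) (l : ℕ) (g : GQ) :
    (L.rb S l g).det = (mx S.rb g).det := by
  rw [Pl.rb_apply, Matrix.det_mul, Matrix.det_mul, mul_right_comm, ← Matrix.det_mul,
    ← Matrix.map_mul, Units.mul_inv, Matrix.map_one _ (map_zero _) (map_one _), Matrix.det_one,
    one_mul]

theorem reg_tr {L : Pl O} {l : ℕ} {g : GQ} (hg : L.rb S l g 0 1 = 0) :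
    (mx S.rb g).trace = L.rb S l g 0 0 + L.rb S l g 1 1 ∧
      (mx S.rb g).det = L.rb S l g 0 0 * L.rb S l g 1 1 := by
  refine ⟨by rw [← rb_tr L S l, Matrix.trace_fin_two], ?_⟩
  rw [← rb_det L S l, Matrix.det_fin_two, hg]; ring

theorem obj_rt {A : Type} [CommRing A] (X : Obj S A) {L : Pl O} {l : ℕ} {g : GQ}
    (hg : L.rb S l g 0 1 = 0) (hne : L.rb S l g 0 0 ≠ L.rb S l g 1 1) :
    ∃ y, Rt X.ρ g y ∧ X.π y = L.rb S l g 1 1 := by
  obtain ⟨n, hn⟩ := (obj_lr X).nil
  haveI := Gma.henselian_of_pow hn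
  obtain ⟨c, hc⟩ := S.surj (L.rb S l g 1 1)
  exact rt_ex X.loc hne (by rw [obj_tr, (reg_tr hg).1]) (by rw [obj_det, (reg_tr hg).2])
    (c := X.ι c) (by rw [X.alg, hc])

theorem clo : CLO := by
  intro O F _ _ _ _ S L hL
  constructor
  · intro A B _ _ X Y u h hX
    refine ⟨fun g hg => ?_, ?_, fun l hl => ?_, fun l hl => ?_⟩
    · rw [← hom_det h, hX.d2 g hg, h.ι]
    · rw [← hom_det h, hX.dc, map_neg, map_one]
    · rw [← hom_det h, hX.dl l hl, h.ι]
    · obtain ⟨y, h1, h2, h3⟩ := hX.ty l hl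
      refine ⟨u y, rt_map h h1, by rw [hom_pi h, h2], ?_⟩
      unfold En at h3 ⊢
      have := congrArg u h3
      rwa [map_sub u, map_mul u, map_mul u, map_sub u, map_mul u, map_ofNat u, hom_tr h, hom_tr h,
        hom_tr h, h.ι] at this
  · intro A B B' _ _ _ X Y Y' u u' h h' inj hY hY'
    have key : ∀ a b : A, u a = u b → u' a = u' b → a = b := fun a b e e' =>
      sub_eq_zero.1 (inj _ (by rw [map_sub, e, sub_self]) (by rw [map_sub, e', sub_self]))
    refine ⟨fun g hg => key _ _ ?_ ?_, key _ _ ?_ ?_, fun l hl => key _ _ ?_ ?_, fun l hl => ?_⟩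
    · rw [hom_det h, hY.d2 g hg, h.ι]
    · rw [hom_det h', hY'.d2 g hg, h'.ι]
    · rw [hom_det h, hY.dc, map_neg, map_one]
    · rw [hom_det h', hY'.dc, map_neg, map_one]
    · rw [hom_det h, hY.dl l hl, h.ι]
    · rw [hom_det h', hY'.dl l hl, h'.ι]
    · obtain ⟨-, hH0, hne⟩ := hL.reg l hl
      have hH := (hL.dg l hl _ hH0).1
      obtain ⟨y, h1, h2⟩ := obj_rt X hH hne
      refine ⟨y, h1, h2, ?_⟩
      obtain ⟨z, a1, a2, a3⟩ := hY.ty l hl
      obtain ⟨z', b1, b2, b3⟩ := hY'.ty l hl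
      have e : u y = z := rt_uniq Y.loc hne (by rw [obj_tr, (reg_tr hH).1]) (rt_map h h1) a1
        (by rw [hom_pi h, h2]) a2
      have e' : u' y = z' := rt_uniq Y'.loc hne (by rw [obj_tr, (reg_tr hH).1])
        (rt_map h' h1) b1 (by rw [hom_pi h', h2]) b2
      unfold En at a3 b3 ⊢
      refine key _ _ ?_ ?_
      · rw [map_sub u, map_mul u, map_mul u, map_sub u, map_mul u, map_ofNat u, hom_tr h,
          hom_tr h, hom_tr h, h.ι, e, a3]
      · rw [map_sub u', map_mul u', map_mul u', map_sub u', map_mul u', map_ofNat u', hom_tr h',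
          hom_tr h', hom_tr h', h'.ι, e', b3]

end Vale.Agent.P022E.Loc
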