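import Vale.Agent.P022D.W.Typ

/-!
# P022E, block Loc: at an odd prime the residual representation has trace zero or is monomial
-/

set_option linter.all false

noncomputable section

namespace Vale.Agent.P022E.G4

open Vale.Agent.P022D.W (Mt TameAt cjH)

variable {G F : Type} [Group G] [Field F]

theorem comm_of {E M N : Mt F} (hE : E 0 0 ≠ E 1 1) (hM : M * E = E * M) (hN : N * E = E * N) :
    M * N = N * M := by
  have hd : E 0 0 - E 1 1 ≠ 0 := sub_ne_zero.2 hE
  have a1 := congrFun (congrFun hM 0) 1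
  have a2 := congrFun (congrFun hM 1) 0
  have b1 := congrFun (congrFun hN 0) 1
  have b2 := congrFun (congrFun hN 1) 0
  simp only [Matrix.mul_apply, Fin.sum_univ_two] at a1 a2 b1 b2
  have k : M 0 1 * N 1 0 = N 0 1 * M 1 0 := by
    apply mul_left_cancel₀ hd
    apply mul_left_cancel₀ hd
    linear_combination (-(E 0 0 - E 1 1) * N 1 0) * a1 + (E 0 1 * (M 0 0 - M 1 1)) * b2 +
      ((E 0 0 - E 1 1) * M 1 0) * b1 - (E 0 1 * (N 0 0 - N 1 1)) * a2
  ext i j
  fin_cases i <;> fin_cases j <;>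
    simp only [Matrix.mul_apply, Fin.sum_univ_two, Fin.zero_eta, Fin.mk_one, Fin.isValue]
  · linear_combination k
  · apply mul_left_cancel₀ hd
    linear_combination (N 0 0 - N 1 1) * a1 - (M 0 0 - M 1 1) * b1
  · apply mul_left_cancel₀ hd
    linear_combination (N 0 0 - N 1 1) * a2 - (M 0 0 - M 1 1) * b2
  · linear_combination -k

theorem ne_of_tr (h2 : (2 : F) = 0) {M : Mt F} (h : M.trace ≠ 0) : M 0 0 ≠ M 1 1 := fun e =>
  h (by rw [Matrix.trace_fin_two, e]; linear_combination M 1 1 * h2)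

theorem sq_of_tr (h2 : (2 : F) = 0) {M : Mt F} (h : M.trace = 0) (hd : M.det = 1) :
    M * M = 1 := by
  rw [Matrix.trace_fin_two] at h
  rw [Matrix.det_fin_two] at hd
  ext i j
  fin_cases i <;> fin_cases j <;>
    simp [Matrix.mul_apply, Fin.sum_univ_two]
  · linear_combination M 0 0 * h - hd - h2
  · linear_combination M 0 1 * h
  · linear_combination M 1 0 * h
  · linear_combination M 1 1 * h - hd - h2

/-- a finite group of matrices whose elements have odd order is commutative -/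
theorem odd_comm (h2 : (2 : F) = 0) (f : G →* Mt F) (N : Subgroup G) (hf : (Set.range f).Finite)
    (ho : ∀ p ∈ N, ∃ m, Odd m ∧ f p ^ m = 1) {p q : G} (hp : p ∈ N) (hq : q ∈ N) :
    f p * f q = f q * f p := by
  classical
  let Γ : Subgroup (Mt F)ˣ := N.map f.toHomUnits
  have : Finite Γ := by
    have := hf.to_subtype
    refine Finite.of_injective (fun k : Γ => (⟨((k : (Mt F)ˣ) : Mt F), by
      obtain ⟨g, -, e⟩ := k.2
      exact ⟨g, congrArg Units.val e⟩⟩ : Set.range f)) fun a b e => ?_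
    exact Subtype.ext (Units.ext (congrArg Subtype.val e))
  have := Fintype.ofFinite Γ
  have hc : Odd (Fintype.card Γ) := by
    rw [← Nat.not_even_iff_odd, even_iff_two_dvd]
    intro h
    obtain ⟨k, hk⟩ := exists_prime_orderOf_dvd_card 2 h
    obtain ⟨g, hg, e⟩ := k.2
    obtain ⟨m, hm, e'⟩ := ho g hg
    have : k ^ m = 1 := Subtype.ext (Units.ext (by
      rw [Subgroup.coe_pow, ← e, Units.val_pow_eq_pow_val]; exact e'))
    have := orderOf_dvd_of_pow_eq_one this
    rw [hk] at this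
    exact (Nat.not_even_iff_odd.2 hm) (even_iff_two_dvd.2 this)
  let E0 : Mt F := !![1, 0; 0, 0]
  let E : Mt F := ∑ k : Γ, ((k : (Mt F)ˣ) : Mt F) * E0 * (((k⁻¹ : Γ) : (Mt F)ˣ) : Mt F)
  have hE : E.trace ≠ 0 := by
    have : E.trace = Fintype.card Γ := by
      rw [Matrix.trace_sum, Finset.sum_congr rfl (g := fun _ => (1 : F)) (fun k _ => by
        rw [Matrix.trace_mul_cycle, Subgroup.coe_inv, Units.inv_mul, one_mul]
        simp [E0, Matrix.trace_fin_two])]
      simp
    obtain ⟨n, hn⟩ := hc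
    rw [this, hn]
    push_cast
    rw [h2]; simp
  have key : ∀ g ∈ N, f g * E = E * f g := by
    intro g hg
    let h : Γ := ⟨f.toHomUnits g, g, hg, rfl⟩
    have eh : f g = ((h : (Mt F)ˣ) : Mt F) := rfl
    rw [Finset.mul_sum, Finset.sum_mul, ← Equiv.sum_comp (Equiv.mulLeft h) (fun k : Γ =>
      ((k : (Mt F)ˣ) : Mt F) * E0 * (((k⁻¹ : Γ) : (Mt F)ˣ) : Mt F) * f g)]
    refine Finset.sum_congr rfl fun k _ => ?_
    rw [eh]
    simp only [Equiv.coe_mulLeft, mul_inv_rev, Subgroup.coe_mul, Subgroup.coe_inv, Units.val_mul,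
      mul_assoc, Units.inv_mul, mul_one]
  exact comm_of (ne_of_tr h2 hE) (key p hp) (key q hq)

/-- a matrix with two different eigenvalues in `F` is diagonal in some basis -/
theorem ex_diag {M : Mt F} {a b : F} (ht : M.trace = a + b) (hd : M.det = a * b) (hab : a ≠ b) :
    ∃ u v : Mt F, u * v = 1 ∧ (u * M * v) 0 1 = 0 ∧ (u * M * v) 1 0 = 0 := by
  rw [Matrix.trace_fin_two] at ht
  rw [Matrix.det_fin_two] at hd
  have fin : ∀ v : Mt F, v.det ≠ 0 → M * v = v * !![a, 0; 0, b] →
      ∃ u v : Mt F, u * v = 1 ∧ (u * M * v) 0 1 = 0 ∧ (u * M * v) 1 0 = 0 := by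
    intro v hv e
    have h1 : v⁻¹ * v = 1 := Matrix.nonsing_inv_mul v (Ne.isUnit hv)
    refine ⟨v⁻¹, v, h1, ?_⟩
    rw [mul_assoc, e, ← mul_assoc, h1, one_mul]
    simp
  by_cases h01 : M 0 1 = 0
  · by_cases h10 : M 1 0 = 0
    · exact ⟨1, 1, one_mul _, by simpa using h01, by simpa using h10⟩
    · refine fin !![a - M 1 1, b - M 1 1; M 1 0, M 1 0] ?_ ?_
      · rw [Matrix.det_fin_two_of]
        intro e
        exact mul_ne_zero h10 (sub_ne_zero.2 hab) (by linear_combination e)
      · ext i j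
        fin_cases i <;> fin_cases j <;> simp [Matrix.mul_apply, Fin.sum_univ_two]
        · linear_combination a * ht - hd
        · linear_combination b * ht - hd
        · ring
        · ring
  · refine fin !![M 0 1, M 0 1; a - M 0 0, b - M 0 0] ?_ ?_
    · rw [Matrix.det_fin_two_of]
      intro e
      exact mul_ne_zero h01 (sub_ne_zero.2 hab) (by linear_combination -e)
    · ext i j
      fin_cases i <;> fin_cases j <;> simp [Matrix.mul_apply, Fin.sum_univ_two]
      · ring
      · ring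
      · linear_combination a * ht - hd
      · linear_combination b * ht - hd

/-- the elements which act diagonally -/
def dgs (f : G →* Mt F) : Subgroup G where
  carrier := {g | f g 0 1 = 0 ∧ f g 1 0 = 0}
  one_mem' := by simp
  mul_mem' := by
    rintro a b ⟨a1, a2⟩ ⟨b1, b2⟩
    simp [map_mul, Matrix.mul_apply, Fin.sum_univ_two, a1, a2, b1, b2]
  inv_mem' := by
    rintro a ⟨a1, a2⟩
    have e : f a * f a⁻¹ = 1 := by rw [← map_mul, mul_inv_cancel, map_one]
    have e00 := congrFun (congrFun e 0) 0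
    have e01 := congrFun (congrFun e 0) 1
    have e10 := congrFun (congrFun e 1) 0
    have e11 := congrFun (congrFun e 1) 1
    simp only [Matrix.mul_apply, Fin.sum_univ_two, a1, a2, zero_mul, add_zero, zero_add,
      Matrix.one_apply_eq, Matrix.one_apply_ne (show (0 : Fin 2) ≠ 1 by decide),
      Matrix.one_apply_ne (show (1 : Fin 2) ≠ 0 by decide)] at e00 e01 e10 e11
    exact ⟨(mul_eq_zero.1 e01).resolve_left (left_ne_zero_of_mul_eq_one e00),
      (mul_eq_zero.1 e10).resolve_left (left_ne_zero_of_mul_eq_one e11)⟩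

theorem mem_dgs {f : G →* Mt F} {g : G} : g ∈ dgs f ↔ f g 0 1 = 0 ∧ f g 1 0 = 0 := Iff.rfl

/-- the normaliser of a regular diagonal element is monomial -/
theorem anti {f : G →* Mt F} {x g : G} (hx : x ∈ dgs f) (hne : f x 0 0 ≠ f x 1 1)
    (hc : f (g * x * g⁻¹) * f x = f x * f (g * x * g⁻¹)) (hg : g ∉ dgs f) :
    f g 0 0 = 0 ∧ f g 1 1 = 0 := by
  obtain ⟨x1, x2⟩ := hx
  have hd : f x 0 0 - f x 1 1 ≠ 0 := sub_ne_zero.2 hne
  set y := f (g * x * g⁻¹) with hy
  have c1 := congrFun (congrFun hc 0) 1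
  have c2 := congrFun (congrFun hc 1) 0
  simp only [Matrix.mul_apply, Fin.sum_univ_two, x1, x2] at c1 c2
  have y1 : y 0 1 = 0 := mul_left_cancel₀ hd (by linear_combination -c1)
  have y2 : y 1 0 = 0 := mul_left_cancel₀ hd (by linear_combination c2)
  have e : y * f g = f g * f x := by rw [hy, ← map_mul, ← map_mul, inv_mul_cancel_right]
  have e00 := congrFun (congrFun e 0) 0
  have e01 := congrFun (congrFun e 0) 1
  have e10 := congrFun (congrFun e 1) 0
  have e11 := congrFun (congrFun e 1) 1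
  simp only [Matrix.mul_apply, Fin.sum_univ_two, x1, x2, y1, y2] at e00 e01 e10 e11
  have ht : y.trace = (f x).trace := by
    rw [hy, map_mul, map_mul, Matrix.trace_mul_cycle, ← map_mul, inv_mul_cancel, map_one, one_mul]
  rw [Matrix.trace_fin_two, Matrix.trace_fin_two] at ht
  have k : y 0 0 = f x 1 1 := by
    rw [mem_dgs, not_and_or] at hg
    rcases hg with h | h
    · exact mul_right_cancel₀ h (by linear_combination e01)
    · have : y 1 1 = f x 0 0 := mul_right_cancel₀ h (by linear_combination e10)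
      linear_combination ht - this
  have k' : y 1 1 = f x 0 0 := by linear_combination ht - k
  rw [k] at e00
  rw [k'] at e11
  exact ⟨mul_left_cancel₀ hd (by linear_combination -e00),
    mul_left_cancel₀ hd (by linear_combination e11)⟩

variable {ℓ : ℕ} {D I N : Subgroup G} {τ φ : G} {f : G →* Mt F}

/-- a regular element which commutes with its conjugates -/
theorem ex_reg (h2 : (2 : F) = 0) (hT : TameAt ℓ D I N τ φ f) (hf : (Set.range f).Finite)
    (hdet : ∀ g ∈ D, (f g).det = 1) {g1 : G} (hg1 : g1 ∈ D) (ht : (f g1).trace ≠ 0) :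
    ∃ x ∈ D, (f x).trace ≠ 0 ∧
      ∀ g ∈ D, f (g * x * g⁻¹) * f x = f x * f (g * x * g⁻¹) := by
  by_cases hN : ∀ p ∈ N, f p = 1
  · have hI : ∀ s ∈ I, ∃ k : ℕ, f s = f τ ^ k := fun s hs => by
      obtain ⟨k, p, hp, rfl⟩ := hT.cyc s hs
      exact ⟨k, by rw [map_mul, map_pow, hN p hp, mul_one]⟩
    have hτ := hT.ID hT.tau
    by_cases h0 : (f τ).trace = 0
    · by_cases h1 : f τ = 1
      · have hD : ∀ g ∈ D, ∃ k : ℕ, f g = f φ ^ k := fun g hg => by
          obtain ⟨k, s, hs, e⟩ := hT.gen g hg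
          obtain ⟨j, e'⟩ := hI s hs
          exact ⟨k, by rw [e, map_mul, map_pow, e', h1, one_pow, mul_one]⟩
        refine ⟨g1, hg1, ht, fun g hg => ?_⟩
        obtain ⟨i, e⟩ := hD _ (D.mul_mem (D.mul_mem hg hg1) (D.inv_mem hg))
        obtain ⟨j, e'⟩ := hD _ hg1
        rw [e, e', ← pow_add, ← pow_add, add_comm]
      · exfalso
        have sq := sq_of_tr h2 h0 (hdet τ hτ)
        obtain ⟨k, e⟩ := hI _ (hT.cjI g1 hg1 τ hT.tau)
        have e2 : f (g1 * τ * g1⁻¹) * f g1 = f g1 * f τ := by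
          rw [← map_mul, ← map_mul, inv_mul_cancel_right]
        rcases Nat.even_or_odd' k with ⟨j, rfl | rfl⟩
        · rw [e, pow_mul, pow_two, sq, one_pow, one_mul] at e2
          apply h1
          calc f τ = f g1⁻¹ * (f g1 * f τ) := by
                rw [← mul_assoc, ← map_mul, inv_mul_cancel, map_one, one_mul]
            _ = 1 := by rw [← e2, ← map_mul, inv_mul_cancel, map_one]
        · rw [e, pow_succ, pow_mul, pow_two, sq, one_pow, one_mul] at e2
          have c1 := congrFun (congrFun e2 0) 1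
          have c2 := congrFun (congrFun e2 1) 0
          have hd := hdet τ hτ
          simp only [Matrix.mul_apply, Fin.sum_univ_two] at c1 c2
          rw [Matrix.trace_fin_two] at h0
          rw [Matrix.det_fin_two] at hd
          have hn : f g1 0 0 - f g1 1 1 ≠ 0 := sub_ne_zero.2 (ne_of_tr h2 ht)
          have t1 : f τ 0 1 = 0 := mul_left_cancel₀ hn (by
            linear_combination -c1 + f g1 0 1 * h0 - f g1 0 1 * f τ 1 1 * h2)
          have t2 : f τ 1 0 = 0 := mul_left_cancel₀ hn (by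
            linear_combination c2 + f g1 1 0 * h0 - f g1 1 0 * f τ 1 1 * h2)
          have t3 : f τ 0 0 = 1 := by
            have : (f τ 0 0 - 1) ^ 2 = 0 := by
              rw [t1] at hd
              linear_combination f τ 0 0 * h0 - hd - f τ 0 0 * h2
            exact sub_eq_zero.1 (pow_eq_zero_iff two_ne_zero |>.1 this)
          apply h1
          ext i j
          fin_cases i <;> fin_cases j <;> simp [t1, t2, t3]
          linear_combination h0 - t3 - h2
    · refine ⟨τ, hτ, h0, fun g hg => ?_⟩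
      obtain ⟨k, e⟩ := hI _ (hT.cjI g hg τ hT.tau)
      rw [e, ← pow_succ, ← pow_succ']
  · simp only [not_forall] at hN
    obtain ⟨p, hp, h1⟩ := hN
    have hD := hT.ID (hT.NI hp)
    refine ⟨p, hD, fun h0 => h1 ?_, fun g hg => odd_comm h2 f N hf hT.odd (hT.cjN g hg p hp) hp⟩
    obtain ⟨_, ⟨m, rfl⟩, e⟩ := hT.odd p hp
    rwa [pow_succ, pow_mul, pow_two, sq_of_tr h2 h0 (hdet p hD), one_pow, one_mul] at e

/-- **G4**: a tame local representation with a non zero trace is monomial in some basis, with a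
regular diagonal element -/
theorem g4 (h2 : (2 : F) = 0) (hT : TameAt ℓ D I N τ φ f) (hf : (Set.range f).Finite)
    (hdet : ∀ g ∈ D, (f g).det = 1)
    (eig : ∀ g ∈ D, ∃ a b : F, (f g).trace = a + b ∧ (f g).det = a * b)
    {g1 : G} (hg1 : g1 ∈ D) (ht : (f g1).trace ≠ 0) :
    ∃ (u v : Mt F) (H : Subgroup G) (g0 : G), u * v = 1 ∧ g0 ∈ D ∧ g0 ∈ H ∧
      (∀ g ∈ H, (u * f g * v) 0 1 = 0 ∧ (u * f g * v) 1 0 = 0) ∧
      (∀ g ∈ D, g ∉ H → (u * f g * v) 0 0 = 0 ∧ (u * f g * v) 1 1 = 0) ∧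
      (u * f g0 * v) 0 0 ≠ (u * f g0 * v) 1 1 := by
  obtain ⟨x, hx, tx, hc⟩ := ex_reg h2 hT hf hdet hg1 ht
  obtain ⟨a, b, e1, e2⟩ := eig x hx
  obtain ⟨u, v, huv, d1, d2⟩ := ex_diag e1 e2 fun e => tx (by
    rw [e1, e]; linear_combination b * h2)
  have hvu : v * u = 1 := mul_eq_one_comm.1 huv
  let f' : G →* Mt F := (cjH v u hvu huv).comp f
  have hf' : ∀ g, f' g = u * f g * v := fun _ => rfl
  have hne : f' x 0 0 ≠ f' x 1 1 := ne_of_tr h2 (by
    rw [hf', Matrix.trace_mul_cycle, hvu, one_mul]; exact tx)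
  refine ⟨u, v, dgs f', x, huv, hx, ⟨d1, d2⟩, fun g hg => hg, fun g hg hn => ?_, hne⟩
  refine anti (f := f') (x := x) ⟨d1, d2⟩ hne ?_ hn
  have := congrArg (cjH v u hvu huv) (hc g hg)
  rwa [map_mul, map_mul (cjH v u hvu huv)] at this

end Vale.Agent.P022E.G4
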